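import Vale.Agent.P313.H463.UD.Defs

/-!
Module C3 of the universal derandomizer: the check is in `LF`.
-/

namespace Vale.Agent.P313.UD

open Finset

namespace C3

variable {k m : ℕ}

/-- Selected arguments. -/
theorem lf_sel {f : Fn k} (hf : LF f) (σ : Fin k → Fin m) :
    LF (fun x b => f x (fun i => b (σ i)) : Fn m) :=
  LF.comp (k := m) (m := k) (f := f) (g := fun i => fun _ b => b (σ i)) hf
    (fun i => LF.proj (σ i))

theorem lf_q3 {q : Fn (k + 3)} (hq : LF q) (σ : Fin k → Fin m) {t u j : Fn m} (ht : LF t)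
    (hu : LF u) (hj : LF j) :
    LF (fun x b => q x (Fin.cons (j x b) (Fin.cons (u x b) (Fin.cons (t x b)
      (fun i => b (σ i))))) : Fn m) := by
  have h := LF.comp (k := m) (m := k + 3) (f := q)
    (g := Fin.cons j (Fin.cons u (Fin.cons t (fun i => fun _ b => b (σ i))))) hq (fun i => by
      refine Fin.cases ?_ (fun i => ?_) i
      · simpa using hj
      · refine Fin.cases ?_ (fun i => ?_) i
        · simpa using hu
        · refine Fin.cases ?_ (fun i => ?_) i
          · exact ht
          · exact LF.proj (k := m) (σ i))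
  refine h.congr (fun x b => ?_)
  congr 1
  funext i
  refine Fin.cases ?_ (fun i => ?_) i
  · simp
  · refine Fin.cases ?_ (fun i => ?_) i
    · simp
    · refine Fin.cases ?_ (fun i => ?_) i
      · rfl
      · rfl

theorem lf_c2 {cs : Fn (k + 2)} (hcs : LF cs) (σ : Fin k → Fin m) {v b' : Fn m} (hv : LF v)
    (hb : LF b') :
    LF (fun x b => cs x (Fin.cons (b' x b) (Fin.cons (v x b) (fun i => b (σ i)))) : Fn m) := by
  have h := LF.comp (k := m) (m := k + 2) (f := cs)
    (g := Fin.cons b' (Fin.cons v (fun i => fun _ b => b (σ i)))) hcs (fun i => by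
      refine Fin.cases ?_ (fun i => ?_) i
      · simpa using hb
      · refine Fin.cases ?_ (fun i => ?_) i
        · exact hv
        · exact LF.proj (k := m) (σ i))
  refine h.congr (fun x b => ?_)
  congr 1
  funext i
  refine Fin.cases ?_ (fun i => ?_) i
  · simp
  · refine Fin.cases ?_ (fun i => ?_) i
    · simp
    · simp

/-- The answers as a function of the arguments. -/
def qq (q : Fn (k + 3)) (x : List Bool) (a : Fin k → ℕ) : ℕ → ℕ → ℕ → ℕ :=
  fun t u j => q x (Fin.cons j (Fin.cons u (Fin.cons t a)))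

/-- The successors as a function of the arguments. -/
def cc (cs : Fn (k + 2)) (x : List Bool) (a : Fin k → ℕ) : ℕ → ℕ → ℕ :=
  fun v b => cs x (Fin.cons b (Fin.cons v a))

theorem lf_est {q : Fn (k + 3)} (hq : LF q) {K : Fn k} (hK : LF K) (σ : Fin k → Fin m)
    {t u : Fn m} (ht : LF t) (hu : LF u) :
    LF (fun x b => est (qq q x (fun i => b (σ i))) (K x (fun i => b (σ i))) (t x b) (u x b) :
      Fn m) := by
  have h1 : LF (fun x c => if q x (Fin.cons (c 0) (Fin.cons (u x (Fin.tail c))
      (Fin.cons (t x (Fin.tail c)) (fun i => c ((σ i).succ))))) = 2 then 1 else 0 :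
      Fn (m + 1)) :=
    LF.ite (LFP.eq (lf_q3 hq (fun i => (σ i).succ) ht.weak hu.weak (LF.proj 0)) (LF.const 2))
      (LF.const 1) (LF.const 0)
  refine (LF.sum h1 (lf_sel hK σ)).congr (fun x b => ?_)
  unfold est qq
  refine Finset.sum_congr rfl (fun i _ => ?_)
  simp only [Fin.cons_zero, Fin.tail_cons, Fin.cons_succ]

theorem lf_infl {q : Fn (k + 3)} {cs : Fn (k + 2)} (hq : LF q) (hcs : LF cs) {V K : Fn k}
    (hV : LF V) (hK : LF K) (σ : Fin k → Fin m) {t u : Fn m} (ht : LF t) (hu : LF u) :
    LF (fun x b => infl (qq q x (fun i => b (σ i))) (cc cs x (fun i => b (σ i)))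
      (V x (fun i => b (σ i))) (K x (fun i => b (σ i))) (t x b) (u x b) : Fn m) := by
  have h0 : LF (fun x c => est (qq q x (fun i => c ((σ i).succ))) (K x (fun i => c ((σ i).succ)))
      (t x (Fin.tail c)) (c 0) : Fn (m + 1)) :=
    lf_est hq hK (fun i => (σ i).succ) ht.weak (LF.proj 0)
  have h2 : ∀ β : ℕ, LF (fun x c => if cs x (Fin.cons β (Fin.cons (c 0)
      (fun i => c ((σ i).succ)))) = u x (Fin.tail c) then
      est (qq q x (fun i => c ((σ i).succ))) (K x (fun i => c ((σ i).succ)))
      (t x (Fin.tail c)) (c 0) else 0 : Fn (m + 1)) := fun β =>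
    LF.ite (LFP.eq (lf_c2 hcs (fun i => (σ i).succ) (LF.proj 0) (LF.const β)) hu.weak) h0
      (LF.const 0)
  refine (LF.sum ((h2 0).add (h2 1)) (lf_sel hV σ)).congr (fun x b => ?_)
  unfold infl cc
  refine Finset.sum_congr rfl (fun i _ => ?_)
  simp only [Fin.cons_zero, Fin.tail_cons, Fin.cons_succ]

end C3

open C3

/-- MODULE C3. -/
theorem chkLF : ChkLF := by
  intro k q cs V s0 T K hq hcs hV hs0 hT hK
  refine ⟨?_, ?_⟩
  · -- the start
    have hE0 : LF (fun x b => est (qq q x (fun i => b i.succ)) (K x (fun i => b i.succ)) 0 (b 0) :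
        Fn (k + 1)) := lf_est hq hK Fin.succ (LF.const 0) (LF.proj 0)
    have hI : LF (fun x b => if b 0 = s0 x (Fin.tail b) then K x (Fin.tail b) else 0 :
        Fn (k + 1)) := LF.ite (LFP.eq (LF.proj 0) hs0.weak) hK.weak (LF.const 0)
    have h1 := LFP.all ((LFP.le hE0 (hI.add (LF.const 1))).and
      (LFP.le hI (hE0.add (LF.const 1)))) hV
    -- the steps
    have hE : LF (fun x b => est (qq q x (fun i => b i.succ.succ)) (K x (fun i => b i.succ.succ))
        (b 1 + 1) (b 0) : Fn (k + 2)) :=
      lf_est hq hK (fun i => i.succ.succ) ((LF.proj 1).add (LF.const 1)) (LF.proj 0)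
    have hF : LF (fun x b => infl (qq q x (fun i => b i.succ.succ))
        (cc cs x (fun i => b i.succ.succ)) (V x (fun i => b i.succ.succ))
        (K x (fun i => b i.succ.succ)) (b 1) (b 0) : Fn (k + 2)) :=
      lf_infl hq hcs hV hK (fun i => i.succ.succ) (LF.proj 1) (LF.proj 0)
    have hB : LF (fun x b => 2 * V x (fun i => b i.succ.succ) + 2 : Fn (k + 2)) :=
      ((LF.const 2).mul (lf_sel hV (fun i => i.succ.succ))).add (LF.const 2)
    have h2 := LFP.all (LFP.all ((LFP.le ((LF.const 2).mul hE) (hF.add hB)).and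
      (LFP.le hF (((LF.const 2).mul hE).add hB))) hV.weak) hT
    refine (h1.and h2).congr (fun x a => ?_)
    unfold Chk
    simp only [Fin.cons_zero, Fin.tail_cons, Fin.cons_succ, Fin.cons_one]
    rfl
  · have h := lf_est (m := k) hq hK (fun i => i) hT (LF.const 0)
    exact h

end Vale.Agent.P313.UD
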